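import Vale.Agent.P132.Random.Rep

/-!
# P132 Random: a unitary close to `1 + i ε L - ε² L² / 2`
-/

namespace Vale.Agent.P132.Random

open Finset

universe u

set_option linter.unusedSectionVars false

variable {H : Type u} [NormedAddCommGroup H] [InnerProductSpace ℂ H] [CompleteSpace H] {d : ℕ}
  {M : VonNeumannAlgebra H}

lemma dg_mul (A : Fin d → H →L[ℂ] H) (X : Mat H d) (j k : Fin d) :
    (dg A * X) j k = A j * X j k := by
  simp [CStarMatrix.mul_apply, dg_apply]

lemma mul_dg (A : Fin d → H →L[ℂ] H) (X : Mat H d) (j k : Fin d) :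
    (X * dg A) j k = X j k * A k := by
  simp [CStarMatrix.mul_apply, dg_apply]

lemma inM_iff (X : Mat H d) :
    InM M X ↔ ∀ g ∈ M.commutant, Commute (dg fun _ => g) X := by
  have key : ∀ x, x ∈ M ↔ ∀ g ∈ M.commutant, g * x = x * g := by
    intro x
    conv_lhs => rw [← VonNeumannAlgebra.commutant_commutant M]
    exact VonNeumannAlgebra.mem_commutant_iff
  constructor
  · intro h g hg
    refine CStarMatrix.ext fun j k => ?_
    rw [dg_mul, mul_dg]
    exact (key _).1 (h j k) g hg
  · intro h j k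
    refine (key _).2 fun g hg => ?_
    have := congrFun (congrFun (h g hg).eq j) k
    rwa [dg_mul, mul_dg] at this

/-- Cayley transform. -/
lemma exists_cayley (y : Mat H d) (hy : IsSelfAdjoint y) (hyM : InM M y) :
    ∃ T V : Mat H d, InM M V ∧ star V * V = 1 ∧ V * star V = 1 ∧ V = (2 : ℂ) • T - 1 ∧
      V = 1 + (2 * Complex.I) • y - (2 : ℂ) • (y * y) +
        (2 * Complex.I ^ 3) • (y * y * y * T) := by
  have hu : IsUnit (1 - Complex.I • y) := by
    have h : (-Complex.I) ∉ spectrum ℂ y := fun hmem => by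
      have := congrArg Complex.im (hy.mem_spectrum_eq_re hmem)
      simp at this
    rw [spectrum.notMem_iff] at h
    have h2 := h.smul (Units.mk0 Complex.I Complex.I_ne_zero)
    convert h2 using 1
    rw [Algebra.algebraMap_eq_smul_one, Units.smul_mk0, smul_sub, smul_smul]
    simp [Complex.I_mul_I]
  obtain ⟨u, hu⟩ := hu
  set T : Mat H d := ↑u⁻¹ with hT
  set N : Mat H d := 1 - Complex.I • y with hN
  have e1 : N * T = 1 := by rw [← hu, hT, Units.mul_inv]
  have e2 : T * N = 1 := by rw [← hu, hT, Units.inv_mul]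
  set P : Mat H d := 1 + Complex.I • y with hP
  have sN : star N = P := by
    rw [hN, hP, star_sub, star_one, star_smul, hy.star_eq, Complex.star_def, Complex.conj_I,
      neg_smul, sub_neg_eq_add]
  have f1 : P * star T = 1 := by rw [← sN, ← star_mul, e2, star_one]
  have f2 : star T * P = 1 := by rw [← sN, ← star_mul, e1, star_one]
  have hNP : Commute N P := by
    rw [hN, hP]
    exact ((Commute.one_left _).sub_left ((Commute.one_right _).add_right (Commute.refl _)))
  set V : Mat H d := (2 : ℂ) • T - 1 with hV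
  have two : (2 : ℂ) • (1 : Mat H d) = P + N := by
    rw [hN, hP, two_smul]; abel
  have v1 : V = P * T := by
    rw [hV]
    calc (2 : ℂ) • T - 1 = ((2 : ℂ) • (1 : Mat H d)) * T - N * T := by
          rw [smul_mul_assoc, one_mul, e1]
      _ = P * T := by rw [two, add_mul, add_sub_cancel_right]
  have v2 : V = T * P := by
    rw [hV]
    calc (2 : ℂ) • T - 1 = T * ((2 : ℂ) • (1 : Mat H d)) - T * N := by
          rw [mul_smul_comm, mul_one, e2]
      _ = T * P := by rw [two, mul_add, add_sub_cancel_right]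
  have sV : star V = star T * N := by
    rw [v1, star_mul, ← sN, star_star]
  refine ⟨T, V, ?_, ?_, ?_, rfl, ?_⟩
  · rw [inM_iff] at hyM ⊢
    intro g hg
    have h1 : Commute (dg fun _ => g) N := by
      rw [hN]
      exact (Commute.one_right _).sub_right ((hyM g hg).smul_right _)
    have h2 : Commute (dg fun _ => g) T := by
      rw [hT]
      rw [← hu] at h1
      exact h1.units_inv_right
    rw [hV]
    exact (h2.smul_right _).sub_right (Commute.one_right _)
  · rw [sV]
    calc star T * N * V = star T * (N * P) * T := by rw [v1]; noncomm_ring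
      _ = (star T * P) * (N * T) := by rw [hNP.eq]; noncomm_ring
      _ = 1 := by rw [f2, e1, mul_one]
  · rw [sV, v2]
    calc T * P * (star T * N) = T * (P * star T) * N := by noncomm_ring
      _ = 1 := by rw [f1, mul_one, e2]
  · have hT1 : T = 1 + Complex.I • y * T := by
      have := e1
      rw [hN, sub_mul, one_mul, sub_eq_iff_eq_add] at this
      exact this
    conv_lhs => rw [hV, hT1, hT1, hT1]
    simp only [mul_add, mul_one, smul_mul_assoc, mul_smul_comm, smul_add, smul_smul, mul_assoc]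
    have h2 : Complex.I * Complex.I = -1 := Complex.I_mul_I
    (match_scalars <;> ring_nf); simp [Complex.I_sq]

/-- The expansion of the Cayley transform, as operators on `H^(d × d)`. -/
lemma exists_step (L : Mat H d) (hL : IsSelfAdjoint L) (hLM : InM M L) {ε : ℝ} (hε : 0 ≤ ε) :
    ∃ V : Mat H d, InM M V ∧ star V * V = 1 ∧ V * star V = 1 ∧
      ‖act V - 1 - ((ε : ℂ) * Complex.I) • act L + ((ε : ℂ) ^ 2 / 2) • (act L * act L)‖ ≤
        ε ^ 3 * ‖act L‖ ^ 3 := by
  have hy : IsSelfAdjoint (((ε / 2 : ℝ) : ℂ) • L) :=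
    IsSelfAdjoint.smul (by simp [IsSelfAdjoint]) hL
  have hyM : InM M (((ε / 2 : ℝ) : ℂ) • L) := fun j k => by
    rw [CStarMatrix.smul_apply]
    exact M.toStarSubalgebra.smul_mem (hLM j k) _
  obtain ⟨T, V, hV, h1, h2, hVT, hexp⟩ := exists_cayley _ hy hyM
  refine ⟨V, hV, h1, h2, ?_⟩
  have hnV : ‖act V‖ ≤ 1 := by
    have h : star (act V) * act V = 1 := by rw [star_act, ← act_mul, h1, act_one]
    have h' := CStarRing.norm_star_mul_self (x := act V)
    rw [h] at h'
    nlinarith [norm_nonneg (act V),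
      ContinuousLinearMap.norm_id_le (𝕜 := ℂ) (E := L2 H d),
      show ‖(1 : L2 H d →L[ℂ] L2 H d)‖ ≤ 1 from ContinuousLinearMap.norm_id_le]
  have hnT : ‖act T‖ ≤ 1 := by
    have e : act T = (2⁻¹ : ℂ) • (act V + 1) := by
      rw [hVT, ← act_one, ← act_add, sub_add_cancel, act_smul, smul_smul]
      norm_num
    rw [e, norm_smul]
    have := norm_add_le_of_le hnV (ContinuousLinearMap.norm_id_le (𝕜 := ℂ) (E := L2 H d))
    norm_num
    linarith [show ‖act V + 1‖ ≤ 1 + 1 from this]
  have e : act V - 1 - ((ε : ℂ) * Complex.I) • act L + ((ε : ℂ) ^ 2 / 2) • (act L * act L) =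
      ((ε : ℂ) ^ 3 / 4 * Complex.I ^ 3) • (act L * act L * act L * act T) := by
    rw [hexp]
    change actHom (H := H) (d := d) _ - 1 - ((ε : ℂ) * Complex.I) • actHom (H := H) (d := d) L +
        ((ε : ℂ) ^ 2 / 2) • ((actHom (H := H) (d := d)) L * (actHom (H := H) (d := d)) L) =
          _ • ((actHom (H := H) (d := d)) L * (actHom (H := H) (d := d)) L *
            (actHom (H := H) (d := d)) L * (actHom (H := H) (d := d)) T)
    simp only [map_add, map_sub, map_smul, map_mul, map_one, smul_mul_assoc, mul_smul_comm,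
      smul_smul]
    push_cast
    match_scalars <;> ring
  rw [e, norm_smul]
  have hb : ‖act L * act L * act L * act T‖ ≤ ‖act L‖ ^ 3 := by
    calc _ ≤ ‖act L‖ * ‖act L‖ * ‖act L‖ * ‖act T‖ :=
          (norm_mul_le _ _).trans (mul_le_mul_of_nonneg_right norm_mul₃_le (norm_nonneg _))
      _ ≤ ‖act L‖ * ‖act L‖ * ‖act L‖ * 1 := by gcongr
      _ = ‖act L‖ ^ 3 := by ring
  have hs : ‖(ε : ℂ) ^ 3 / 4 * Complex.I ^ 3‖ ≤ ε ^ 3 := by
    simp [abs_of_nonneg hε]
    nlinarith [pow_nonneg hε 3]
  exact mul_le_mul hs hb (norm_nonneg _) (pow_nonneg hε 3)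

end Vale.Agent.P132.Random
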