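import Vale.Agent.P132.Random.Walk

/-!
# P132 Random: proof of `Iface.StmtDissip`
-/

namespace Vale.Agent.P132.Random

open scoped InnerProductSpace Topology
open Finset Filter

universe u

set_option linter.unusedSectionVars false

variable {H : Type u} [NormedAddCommGroup H] [InnerProductSpace ℂ H] [CompleteSpace H] {d : ℕ}
  {M : VonNeumannAlgebra H} {Ω : H}

lemma pd_act_xi (X : Mat H d) (Ω : H) (c : Fin d → ℝ) :
    pd (act X (xi Ω c)) = act (dg fun j => X j j) (xi Ω c) := by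
  refine PiLp.ext fun p => ?_
  rw [pd_apply, act_xi, act_xi, dg_apply]
  split_ifs with h
  · rw [← h]
  · simp

lemma norm_cv_eq_tw (D : ModData M Ω) (c : Fin d → ℝ) {W : Mat H d} (hW : InM M W)
    (h1 : star W * W = 1) (h2 : W * star W = 1) :
    ‖cv D c W‖ = ‖tw D W (xi Ω c) - xi Ω c‖ := by
  have hiso : ∀ η : L2 H d, ‖conj D (act (star W) (conj D η))‖ = ‖η‖ := fun η => by
    rw [norm_conj, norm_act_isometry (by rw [star_star]; exact h2), norm_conj]
  have e : conj D (act (star W) (conj D (tw D W (xi Ω c) - xi Ω c))) = cv D c W := by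
    rw [tw_apply, act_conj_comm D hW hW, conj_sub, conj_conj, conj_xi, map_sub, conj_sub,
      ← mul_apply_eq_comp (act (star W)) (act W), ← act_mul, h1, act_one, one_apply_eq_self,
      conj_conj, cv]
  rw [← e, hiso]

/-- An entry is bounded by the operator norm. -/
lemma norm_entry_le (X : Mat H d) (j k : Fin d) (v : H) : ‖X j k v‖ ≤ ‖act X‖ * ‖v‖ := by
  set w : L2 H d := PiLp.single 2 (k, k) v with hw
  have e : act X w (j, k) = X j k v := by
    rw [act_apply, Finset.sum_eq_single k]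
    · simp [hw]
    · intro l _ hl; simp [hw, hl]
    · simp
  have hn : ‖w‖ = ‖v‖ := PiLp.norm_single 2 (fun _ : Fin d × Fin d => H) (k, k) v
  rw [← e, ← hn]
  exact (PiLp.norm_apply_le _ _).trans ((act X).le_opNorm w)

/-- Cauchy-Schwarz for averages. -/
lemma av_le_sqrt {ι : Type*} [Fintype ι] [Nonempty ι] (f : ι → ℝ) :
    (Fintype.card ι : ℝ)⁻¹ * ∑ i, f i ≤ √((Fintype.card ι : ℝ)⁻¹ * ∑ i, f i ^ 2) := by
  refine Real.le_sqrt_of_sq_le ?_
  have h : (0 : ℝ) < Fintype.card ι := Nat.cast_pos.2 Fintype.card_pos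
  have := sq_sum_le_card_mul_sum_sq (s := (univ : Finset ι)) (f := f)
  rw [Finset.card_univ] at this
  rw [mul_pow]
  calc (Fintype.card ι : ℝ)⁻¹ ^ 2 * (∑ i, f i) ^ 2
      ≤ (Fintype.card ι : ℝ)⁻¹ ^ 2 * (Fintype.card ι * ∑ i, f i ^ 2) := by gcongr
    _ = _ := by field_simp

section estimates

variable (D : ModData M Ω) {c : Fin d → ℝ} {V : Mat H d} {A : Fin d → H →L[ℂ] H}

lemma phi_iterate_sub_le (hV : star V * V = 1) {q : ℝ}
    (hq : ‖pd (tw D V (xi Ω c)) - xi Ω c‖ ≤ q) :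
    ∀ i : ℕ, ‖(phi D V)^[i] (xi Ω c) - xi Ω c‖ ≤ i * q
  | 0 => by simp
  | i + 1 => by
    have h := phi_iterate_sub_le hV hq i
    rw [Function.iterate_succ_apply']
    set η := (phi D V)^[i] (xi Ω c)
    have : ‖phi D V η - phi D V (xi Ω c)‖ ≤ ‖η - xi Ω c‖ := by
      rw [phi, phi, ← map_sub, ← map_sub]
      exact (norm_pd_le _).trans (norm_tw D hV _).le
    have t := norm_sub_le_norm_sub_add_norm_sub (phi D V η) (phi D V (xi Ω c)) (xi Ω c)
    rw [show phi D V (xi Ω c) = pd (tw D V (xi Ω c)) from rfl] at t this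
    push_cast
    linarith

/-- The average of `cent2` along the walk. -/
lemma av_cent2_le (hc : ∀ j, 0 < c j) (h1 : ∑ j, c j = 1) (hΩ : ‖Ω‖ = 1) (hVM : InM M V)
    (hV : star V * V = 1) (hV' : V * star V = 1) {q : ℝ}
    (hq : ‖pd (tw D V (xi Ω c)) - xi Ω c‖ ≤ q) (i : ℕ) :
    (Fintype.card (Fin i → Fin d → Bool) : ℝ)⁻¹ *
      ∑ r, cent2 D c (fun j k => walk V i r j k) ≤ 2 * (i * q) := by
  set ξ := xi Ω c with hξ
  have hn : ‖ξ‖ = 1 := norm_xi c hc h1 hΩ
  have e : ∀ r : Fin i → Fin d → Bool, cent2 D c (fun j k => walk V i r j k) =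
      2 - 2 * (⟪ξ, tw D (walk V i r) ξ⟫_ℂ).re := fun r => by
    obtain ⟨hM, e1, e2⟩ := walk_spec hVM hV hV' i r
    rw [← norm_cv_sq, norm_cv_eq_tw D c hM e1 e2, @norm_sub_sq ℂ, norm_tw D e1, ← hξ, hn,
      inner_re_symm, RCLike.re_to_complex]
    ring
  have hav := congrArg (fun v => (⟪ξ, v⟫_ℂ).re) (av_tw_walk D hVM hV hV' i ξ (pd_xi Ω c))
  simp only [av, inner_smul_right, inner_sum] at hav
  rw [Complex.mul_re, Complex.re_sum] at hav
  simp only [Complex.inv_re, Complex.inv_im, Complex.natCast_re, Complex.natCast_im, neg_zero,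
    zero_div, zero_mul, sub_zero, Complex.normSq_natCast, div_self_mul_self'] at hav
  simp only [e, Finset.sum_sub_distrib, Finset.sum_const, Finset.card_univ, nsmul_eq_mul,
    ← Finset.mul_sum]
  have hcard : (Fintype.card (Fin i → Fin d → Bool) : ℝ) ≠ 0 :=
    Nat.cast_ne_zero.2 Fintype.card_ne_zero
  rw [mul_sub, ← mul_assoc, inv_mul_cancel₀ hcard, one_mul, mul_left_comm, hav]
  have hcs := abs_le.1 ((Complex.abs_re_le_norm _).trans
    (norm_inner_le_norm (𝕜 := ℂ) ξ ((phi D V)^[i] ξ - ξ)))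
  rw [inner_sub_right, Complex.sub_re, hn, one_mul, inner_self_eq_norm_sq_to_K, hn] at hcs
  simp at hcs
  nlinarith [phi_iterate_sub_le D hV hq i, hcs.1]

end estimates

lemma bseq_spec {A : Fin d → H →L[ℂ] H} (hA : ∀ j, A j ∈ M ∧ IsSelfAdjoint (A j) ∧ ‖A j‖ ≤ 1)
    {V : Mat H d} (hVM : InM M V) (hV : star V * V = 1) (i : ℕ) :
    (∀ j, bseq V A i j ∈ M ∧ IsSelfAdjoint (bseq V A i j)) ∧ ‖act (dg (bseq V A i))‖ ≤ 1 := by
  induction i with
  | zero => exact ⟨fun j => ⟨(hA j).1, (hA j).2.1⟩, norm_act_dg_le _ fun j => (hA j).2.2⟩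
  | succ i ih =>
    have hM : InM M (star V * dg (bseq V A i) * V) :=
      (hVM.star.mul (inM_dg fun j => (ih.1 j).1)).mul hVM
    have hs : star (dg (bseq V A i)) = dg (bseq V A i) := by
      refine CStarMatrix.ext fun j k => ?_
      rw [CStarMatrix.star_apply, dg_apply, dg_apply]
      by_cases h : j = k
      · subst h; rw [if_pos rfl]; exact (ih.1 j).2
      · simp [h, Ne.symm h]
    refine ⟨fun j => ⟨hM j j, ?_⟩, norm_act_dg_le _ fun j => ?_⟩
    · change star ((star V * dg (bseq V A i) * V) j j) = (star V * dg (bseq V A i) * V) j j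
      rw [← CStarMatrix.star_apply, star_mul, star_mul, star_star, hs, mul_assoc]
    · refine ContinuousLinearMap.opNorm_le_bound _ zero_le_one fun v => ?_
      rw [one_mul]
      refine (norm_entry_le _ _ _ v).trans ?_
      refine mul_le_of_le_one_left (norm_nonneg _) ?_
      rw [act_mul, act_mul, ← star_act]
      refine (norm_mul₃_le).trans ?_
      rw [norm_starL]
      exact mul_le_one₀ (mul_le_one₀ (norm_act_le_one hV) (norm_nonneg _) ih.2)
        (norm_nonneg _) (norm_act_le_one hV)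

lemma near_bound (D : ModData M Ω) (hΩ : ‖Ω‖ = 1) {c : Fin d → ℝ} (hc : ∀ j, 0 < c j)
    (h1 : ∑ j, c j = 1) {A : Fin d → H →L[ℂ] H}
    (hA : ∀ j, A j ∈ M ∧ IsSelfAdjoint (A j) ∧ ‖A j‖ ≤ 1) {δ η : ℝ} (hδ : 0 < δ) (hη : 0 ≤ η)
    (htr : ∀ W : Fin d → Fin d → H →L[ℂ] H, IsUnitaryMat M W → cent2 D c W ≤ δ →
      comm2 Ω c A W ≤ η)
    {V : Mat H d} (hVM : InM M V) (hV : star V * V = 1) (hV' : V * star V = 1)
    {q Q : ℝ} (hq : ‖pd (tw D V (xi Ω c)) - xi Ω c‖ ≤ q) (i : ℕ) (hiq : 2 * (i * q) ≤ Q) :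
    ‖act (dg (bseq V A i)) (xi Ω c) - act (dg A) (xi Ω c)‖ ≤ √(η + 4 / δ * Q) := by
  set ξ := xi Ω c with hξ
  have hn : ‖ξ‖ = 1 := norm_xi c hc h1 hΩ
  set a := act (dg A) with ha
  have hcent := (av_cent2_le D hc h1 hΩ hVM hV hV' hq i).trans hiq
  have hcomm : ∀ r : Fin i → Fin d → Bool,
      ‖act (star (walk V i r) * dg A * walk V i r) ξ - a ξ‖ ^ 2 ≤
        η + 4 / δ * cent2 D c (fun j k => walk V i r j k) := by
    intro r
    obtain ⟨hM, e1', e2⟩ := walk_spec hVM hV hV' i r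
    set W := walk V i r with hW
    have hWs : star (star W) * star W = 1 := by rw [star_star]; exact e2
    have e : act (star W * dg A * W) ξ - a ξ =
        act (star W) (a (act W ξ) - act W (a ξ)) := by
      simp only [act_mul, map_sub, mul_apply_eq_comp]
      rw [← mul_apply_eq_comp (act (star W)) (act W) (a ξ), ← act_mul, e1', act_one,
        one_apply_eq_self]
    rw [e, norm_act_isometry hWs, ha, hξ, ← comm2_eq Ω c hc A W]
    have hU : IsUnitaryMat M fun j k => W j k := by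
      refine ⟨fun j k => hM j k, fun j l => ?_, fun j l => ?_⟩
      · have := congrFun (congrFun e1' j) l
        simpa [CStarMatrix.mul_apply, CStarMatrix.star_apply, CStarMatrix.one_apply] using this
      · have := congrFun (congrFun e2 j) l
        simpa [CStarMatrix.mul_apply, CStarMatrix.star_apply, CStarMatrix.one_apply] using this
    have h0 : 0 ≤ cent2 D c (fun j k => W j k) := by rw [← norm_cv_sq]; positivity
    by_cases h : cent2 D c (fun j k => W j k) ≤ δ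
    · have h' : 0 ≤ 4 / δ * cent2 D c (fun j k => W j k) := by positivity
      linarith [htr _ hU h]
    · rw [comm2_eq Ω c hc A W, ← hξ]
      have h4 : 4 ≤ 4 / δ * cent2 D c (fun j k => W j k) := by
        rw [div_mul_eq_mul_div, le_div_iff₀ hδ]; linarith
      have hn1 : ‖a (act W ξ) - act W (a ξ)‖ ≤ 2 := by
        refine (norm_sub_le _ _).trans ?_
        rw [norm_act_isometry e1']
        have ha1 := norm_act_dg_le A fun j => (hA j).2.2
        have t1 := a.le_of_opNorm_le ha1 (act W ξ)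
        have t2 := a.le_of_opNorm_le ha1 ξ
        rw [norm_act_isometry e1'] at t1
        rw [one_mul, hn] at t1 t2
        linarith
      nlinarith [norm_nonneg (a (act W ξ) - act W (a ξ))]
  have hav := congrArg (fun X => act X ξ) (av_conj_walk (V := V) A i)
  change (actHom (H := H) (d := d) (av _)) ξ = (act (dg (bseq V A i)) ξ) at hav
  simp only [av, map_smul, map_sum] at hav
  set n := (Fintype.card (Fin i → Fin d → Bool) : ℝ) with hnd
  have hn0 : 0 < n := Nat.cast_pos.2 Fintype.card_pos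
  have e : (act (dg (bseq V A i)) ξ) - a ξ = (n : ℂ)⁻¹ • ∑ r : Fin i → Fin d → Bool,
      (act (star (walk V i r) * dg A * walk V i r) ξ - a ξ) := by
    rw [← hav, Finset.sum_sub_distrib, smul_sub, Finset.sum_const, Finset.card_univ,
      ← Nat.cast_smul_eq_nsmul ℂ, smul_smul, hnd, Complex.ofReal_natCast,
      inv_mul_cancel₀ (Nat.cast_ne_zero.2 Fintype.card_ne_zero), one_smul]
    simp [actHom]
  rw [e, norm_smul, norm_inv, Complex.norm_real, Real.norm_of_nonneg hn0.le]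
  refine (mul_le_mul_of_nonneg_left (norm_sum_le _ _) (inv_nonneg.2 hn0.le)).trans ?_
  refine (av_le_sqrt _).trans (Real.sqrt_le_sqrt ?_)
  refine (mul_le_mul_of_nonneg_left (Finset.sum_le_sum fun r _ => hcomm r)
    (inv_nonneg.2 hn0.le)).trans ?_
  rw [Finset.sum_add_distrib, Finset.sum_const, Finset.card_univ, nsmul_eq_mul, ← hnd,
    ← Finset.mul_sum, mul_add, ← mul_assoc, inv_mul_cancel₀ hn0.ne', one_mul, mul_left_comm]
  gcongr

lemma step_bound (D : ModData M Ω) {c : Fin d → ℝ} {V : Mat H d} (hn : ‖xi Ω c‖ = 1)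
    (hVM : InM M V) (hV : star V * V = 1) (hV' : V * star V = 1) {q : ℝ}
    (hq : ‖pd (tw D V (xi Ω c)) - xi Ω c‖ ≤ q) {B : Fin d → H →L[ℂ] H}
    (hBM : InM M (dg B)) (hBn : ‖act (dg B)‖ ≤ 1) :
    ‖pd (act (star V * dg B * V) (xi Ω c))‖ ^ 2 +
      ‖act (star V * dg B * V) (xi Ω c) - pd (act (star V * dg B * V) (xi Ω c))‖ ^ 2 ≤
      ‖act (dg B) (xi Ω c)‖ ^ 2 + 4 * q := by
  set ξ := xi Ω c with hξ
  set b := act (dg B) with hb
  have hb1 : ‖b‖ ≤ 1 := hBn
  set ζ := tw D V ξ with hζd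
  have eY : ‖act (star V * dg B * V) ξ‖ = ‖b ζ‖ := by
    have hζ : ζ = conj D (act V (conj D (act V ξ))) := by
      rw [hζd, tw_apply, ← act_conj_comm D hVM hVM]
    have hVs : star (star V) * star V = 1 := by rw [star_star]; exact hV'
    rw [hζ, hb, act_conj_comm D hVM hBM, norm_conj, norm_act_isometry hV, norm_conj]
    simp only [act_mul, mul_apply_eq_comp, norm_act_isometry hVs]
  rw [pd_sq_add, eY]
  set v := act (dg fun j => star (B j) * B j) ξ with hvd
  have hv : pd v = v := by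
    rw [hvd, hξ, pd_act_xi]; simp [dg_apply]
  have hvn : ‖v‖ ≤ 1 := by
    have hop : ‖act (dg fun j => star (B j) * B j)‖ ≤ 1 := norm_act_dg_le _ fun j => ?_
    refine ((act (dg fun j => star (B j) * B j)).le_of_opNorm_le hop ξ).trans ?_
    rotate_left
    · have hj : ‖B j‖ ≤ 1 := by
        refine ContinuousLinearMap.opNorm_le_bound _ zero_le_one fun x => ?_
        have := norm_entry_le (dg B) j j x
        rw [dg_apply, if_pos rfl] at this
        exact this.trans (by gcongr)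
      refine (norm_mul_le _ _).trans ?_
      rw [norm_star]
      exact mul_le_one₀ hj (norm_nonneg _) hj
    · rw [one_mul, hn]
  have hin : ⟪b ξ, b (ζ - ξ)⟫_ℂ = ⟪v, pd ζ - ξ⟫_ℂ := by
    rw [show pd ζ - ξ = pd (ζ - ξ) by rw [map_sub, hξ, pd_xi], inner_pd _ _ hv,
      ← ContinuousLinearMap.adjoint_inner_left]
    congr 1
    rw [← ContinuousLinearMap.star_eq_adjoint, hb, star_act, ← mul_apply_eq_comp (act _) (act _),
      ← act_mul, hvd]
    congr 2
    refine CStarMatrix.ext fun j k => ?_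
    rw [mul_dg, CStarMatrix.star_apply, dg_apply, dg_apply]
    by_cases h : j = k
    · subst h; simp
    · simp [h, Ne.symm h]
  have hζn : ‖ζ - ξ‖ ^ 2 ≤ 2 * q := by
    rw [@norm_sub_sq ℂ, norm_tw D hV, hn, inner_re_symm, RCLike.re_to_complex,
      ← inner_pd _ _ (pd_xi Ω c)]
    have h' := abs_le.1 ((Complex.abs_re_le_norm _).trans
      (norm_inner_le_norm (𝕜 := ℂ) ξ (pd ζ - ξ)))
    rw [inner_sub_right, Complex.sub_re, hn, one_mul, inner_self_eq_norm_sq_to_K, hn] at h'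
    simp at h'
    nlinarith [h'.1]
  have e : ‖b ζ‖ ^ 2 = ‖b ξ‖ ^ 2 + 2 * (⟪b ξ, b (ζ - ξ)⟫_ℂ).re + ‖b (ζ - ξ)‖ ^ 2 := by
    rw [← RCLike.re_to_complex, ← @norm_add_sq ℂ, ← map_add, add_sub_cancel]
  have t1 : (⟪b ξ, b (ζ - ξ)⟫_ℂ).re ≤ q := by
    rw [hin]
    refine (Complex.re_le_norm _).trans ((norm_inner_le_norm _ _).trans ?_)
    calc ‖v‖ * ‖pd ζ - ξ‖ ≤ 1 * q := by gcongr
      _ = q := one_mul q
  have t2 : ‖b (ζ - ξ)‖ ^ 2 ≤ 2 * q := by
    refine le_trans ?_ hζn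
    have := b.le_of_opNorm_le hb1 (ζ - ξ)
    rw [one_mul] at this
    gcongr
  change ‖b ζ‖ ^ 2 ≤ ‖b ξ‖ ^ 2 + 4 * q
  linarith

lemma off_bound (Ω : H) {c : Fin d → ℝ} (hn : ‖xi Ω c‖ = 1) {L V : Mat H d}
    (hL0 : ∀ j, L j j = 0) {ε C2 : ℝ} (hε : 0 ≤ ε) {B : Fin d → H →L[ℂ] H}
    (hb : ‖star (act V) * act (dg B) * act V - act (dg B) -
      ((ε : ℂ) * Complex.I) • (act (dg B) * act L - act L * act (dg B))‖ ≤ C2 * ε ^ 2) :
    ε * ‖act (dg B * L - L * dg B) (xi Ω c)‖ ≤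
      ‖act (star V * dg B * V) (xi Ω c) - pd (act (star V * dg B * V) (xi Ω c))‖ + C2 * ε ^ 2 := by
  set ξ := xi Ω c with hξ
  set β := act (dg B) ξ with hβ
  set X := act (dg B * L - L * dg B) ξ with hX
  set Y := act (star V * dg B * V) ξ with hY
  set R := star (act V) * act (dg B) * act V - act (dg B) -
      ((ε : ℂ) * Complex.I) • (act (dg B) * act L - act L * act (dg B)) with hR
  have hXe : X = (act (dg B) * act L - act L * act (dg B)) ξ := by
    simp only [hX, ← act_mul]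
    exact congrFun (congrArg DFunLike.coe (map_sub (actHom (H := H) (d := d)) _ _)) ξ
  have hYe : Y = β + ((ε : ℂ) * Complex.I) • X + R ξ := by
    rw [hXe, hR]
    simp only [hY, hβ, act_mul, ← star_act, FunLike.coe_sub, FunLike.coe_smul, Pi.sub_apply,
      Pi.smul_apply, mul_apply_eq_comp]
    module
  have hpX : pd (X) = 0 := by
    rw [hX, pd_act_xi]
    refine PiLp.ext fun p => ?_
    simp [dg_mul, mul_dg, hL0, dg_apply]
  have hpβ : pd (β) = β := by
    rw [hβ, hξ, pd_act_xi]; simp [dg_apply]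
  have e : ((ε : ℂ) * Complex.I) • X = (Y - pd (Y)) - (R ξ - pd (R ξ)) := by
    rw [hYe, map_add, map_add, map_smul, hpX, hpβ, smul_zero]
    abel
  have h3 := congrArg norm e
  rw [norm_smul] at h3
  have h4 : ‖(ε : ℂ) * Complex.I‖ = ε := by simp [abs_of_nonneg hε]
  rw [h4] at h3
  rw [h3]
  refine (norm_sub_le _ _).trans (add_le_add le_rfl ?_)
  have h5 : ‖R ξ - pd (R ξ)‖ ≤ ‖R ξ‖ := by
    refine le_of_sq_le_sq ?_ (norm_nonneg _)
    nlinarith [pd_sq_add (R ξ), sq_nonneg ‖pd (R ξ)‖]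
  refine h5.trans ((R.le_of_opNorm_le hb ξ).trans ?_)
  rw [hn, mul_one]

/-- The bound for a fixed step `1 / N`. -/
lemma bound_step (D : ModData M Ω) (hΩ : ‖Ω‖ = 1) {c : Fin d → ℝ} (hc : ∀ j, 0 < c j)
    (h1 : ∑ j, c j = 1) {A : Fin d → H →L[ℂ] H} {L : Mat H d} {δ η C C1 C2 : ℝ}
    {Z : Fin d → Fin d → ℂ} (hδ : 0 < δ) (hC : 0 ≤ C)
    (hA : ∀ j, A j ∈ M ∧ IsSelfAdjoint (A j) ∧ ‖A j‖ ≤ 1)
    (hL0 : ∀ j, L j j = 0) (hη : 0 ≤ η)
    (htr : ∀ W : Fin d → Fin d → H →L[ℂ] H, IsUnitaryMat M W → cent2 D c W ≤ δ →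
      comm2 Ω c A W ≤ η)
    (hP : ∀ B : Fin d → H →L[ℂ] H, (∀ j, B j ∈ M ∧ IsSelfAdjoint (B j)) →
      ‖pairing Ω c B (fun j k => L j k) Z‖ ≤ C * √(∑ j, c j * ‖B j Ω‖ ^ 2))
    {V : Mat H d} (hVM : InM M V) (hV : star V * V = 1) (hV' : V * star V = 1)
    {N : ℕ} (hN : 0 < N)
    (hq : ‖pd (tw D V (xi Ω c)) - xi Ω c‖ ≤
      (N : ℝ)⁻¹ ^ 2 / 2 * drift D c (fun j k => L j k) + C1 * (N : ℝ)⁻¹ ^ 3)
    (hB : ∀ B : L2 H d →L[ℂ] L2 H d, ‖B‖ ≤ 1 →
      ‖star (act V) * B * act V - B -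
        (((N : ℝ)⁻¹ : ℂ) * Complex.I) • (B * act L - act L * B)‖ ≤ C2 * (N : ℝ)⁻¹ ^ 2) :
    let D0 := drift D c (fun j k => L j k)
    let ε := (N : ℝ)⁻¹
    let e1 := √(η + 4 / δ * (D0 + 2 * C1 * ε))
    ‖pairing Ω c A (fun j k => L j k) Z‖ ≤
      √(∑ j, ∑ k, c k * ‖Z j k‖ ^ 2) * (√(2 * e1 + 2 * D0 + 4 * C1 * ε) + C2 * ε) + C * e1 := by
  intro D0 ε e1
  set ξ := xi Ω c with hξ
  have hn : ‖ξ‖ = 1 := norm_xi c hc h1 hΩ
  have hN' : (0 : ℝ) < N := Nat.cast_pos.2 hN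
  set q := ε ^ 2 / 2 * D0 + C1 * ε ^ 3 with hqd
  have q0 : 0 ≤ q := (norm_nonneg _).trans hq
  set K := N * N with hK
  have hKq : (K : ℝ) * q = D0 / 2 + C1 * ε := by
    rw [hqd, hK, Nat.cast_mul]
    simp only [ε]
    field_simp
  set B := bseq V A with hBd
  set β := fun i => act (dg (B i)) ξ with hβ
  set a := act (dg A) with ha
  -- invariants
  have inv : ∀ i, (∀ j, B i j ∈ M ∧ IsSelfAdjoint (B i j)) ∧ ‖act (dg (B i))‖ ≤ 1 :=
    fun i => bseq_spec hA hVM hV i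
  have inM' : ∀ i, InM M (dg (B i)) := fun i => inM_dg fun j => ((inv i).1 j).1
  -- the conjugates stay near A
  have near : ∀ i ≤ K, ‖β i - a ξ‖ ≤ e1 := by
    intro i hi
    have : (i : ℝ) * q ≤ K * q := by gcongr
    exact near_bound D hΩ hc h1 hA hδ hη htr hVM hV hV' hq i (by linarith)
  -- one step loses the off diagonal part
  set Y := fun i => act (star V * dg (B i) * V) ξ with hY
  have hdiag : ∀ i, pd (Y i) = β (i + 1) := fun i => pd_act_xi _ _ _
  have step : ∀ i, ‖β (i + 1)‖ ^ 2 + ‖Y i - pd (Y i)‖ ^ 2 ≤ ‖β i‖ ^ 2 + 4 * q := by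
    intro i
    rw [← hdiag]
    exact step_bound D hn hVM hV hV' hq (inM' i) (inv i).2
  set X := fun i => act (dg (B i) * L - L * dg (B i)) ξ with hX
  set o := fun i => ‖Y i - pd (Y i)‖ with ho
  have hoff : ∀ i, ε * ‖X i‖ ≤ o i + C2 * ε ^ 2 := by
    intro i
    exact off_bound Ω hn hL0 (by positivity) (by simpa [ε] using hB _ (inv i).2)
  -- total loss
  set G := 2 * e1 + 2 * D0 + 4 * C1 * ε with hG
  have htot : ∑ i ∈ range K, o i ^ 2 ≤ G := by
    have hsum : ∀ m, ‖β m‖ ^ 2 + ∑ i ∈ range m, o i ^ 2 ≤ ‖β 0‖ ^ 2 + m * (4 * q) := by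
      intro m
      induction m with
      | zero => simp
      | succ m ih =>
        rw [Finset.sum_range_succ]
        push_cast
        linarith [step m]
    have hK1 := hsum K
    have n0 : ‖β 0‖ ≤ 1 := ((act (dg (B 0))).le_of_opNorm_le (inv 0).2 ξ).trans (by rw [one_mul, hn])
    have nK : ‖β K‖ ≤ 1 := ((act (dg (B K))).le_of_opNorm_le (inv K).2 ξ).trans (by rw [one_mul, hn])
    have hd : ‖β 0‖ - ‖β K‖ ≤ e1 := by
      refine (norm_sub_norm_le _ _).trans ?_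
      rw [norm_sub_rev]
      exact near K le_rfl
    have : ‖β 0‖ ^ 2 - ‖β K‖ ^ 2 ≤ 2 * e1 := by
      nlinarith [norm_nonneg (β 0), norm_nonneg (β K), Real.sqrt_nonneg (η + 4 / δ * (D0 + 2 * C1 * ε))]
    nlinarith
  -- the pairing
  set zv : L2 H d := WithLp.toLp 2 fun p => ((√(c p.2) : ℂ) * Z p.1 p.2) • Ω with hzv
  have hzn : ‖zv‖ = √(∑ j, ∑ k, c k * ‖Z j k‖ ^ 2) := by
    rw [← Real.sqrt_sq (norm_nonneg zv), PiLp.norm_sq_eq_of_L2, Fintype.sum_prod_type]
    congr 1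
    refine Finset.sum_congr rfl fun j _ => Finset.sum_congr rfl fun k _ => ?_
    simp [hzv, norm_smul, hΩ, mul_pow, abs_of_nonneg (Real.sqrt_nonneg _),
      Real.sq_sqrt (hc k).le]
  have hpe : ∀ Bf : Fin d → H →L[ℂ] H, pairing Ω c Bf (fun j k => L j k) Z =
      ⟪zv, act (dg Bf * L - L * dg Bf) ξ⟫_ℂ := by
    intro Bf
    rw [pairing, PiLp.inner_apply, Fintype.sum_prod_type]
    refine Finset.sum_congr rfl fun j _ => Finset.sum_congr rfl fun k _ => ?_
    rw [hξ, act_xi]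
    simp only [hzv, CStarMatrix.sub_apply, dg_mul, mul_dg, inner_smul_left, inner_smul_right,
      map_mul, Complex.conj_ofReal]
    rw [← mul_assoc, ← mul_assoc, ← Complex.ofReal_mul, Real.mul_self_sqrt (hc k).le]
  have main : ∀ i < K, ‖pairing Ω c A (fun j k => L j k) Z‖ ≤ C * e1 + ‖zv‖ * ‖X i‖ := by
    intro i hi
    have hdiff := hP (fun j => A j - B i j) fun j =>
      ⟨sub_mem (hA j).1 ((inv i).1 j).1, (hA j).2.1.sub ((inv i).1 j).2⟩
    have hlin : pairing Ω c A (fun j k => L j k) Z =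
        pairing Ω c (fun j => A j - B i j) (fun j k => L j k) Z +
          pairing Ω c (B i) (fun j k => L j k) Z := by
      simp only [pairing, ← Finset.sum_add_distrib]
      refine Finset.sum_congr rfl fun j _ => Finset.sum_congr rfl fun k _ => ?_
      rw [← mul_add, ← inner_add_right]
      congr 2
      simp [sub_mul, mul_sub]
      abel
    have hnear : √(∑ j, c j * ‖(A j - B i j) Ω‖ ^ 2) ≤ e1 := by
      refine le_trans (le_of_eq ?_) (near i hi.le)
      rw [← Real.sqrt_sq (norm_nonneg (β i - a ξ)), norm_sub_rev, PiLp.norm_sq_eq_of_L2,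
        Fintype.sum_prod_type]
      congr 1
      refine Finset.sum_congr rfl fun j _ => ?_
      rw [Finset.sum_eq_single j]
      · simp [hβ, ha, act_dg_apply, hξ, xi_apply, norm_smul, mul_pow, ← smul_sub,
          abs_of_nonneg (Real.sqrt_nonneg _), Real.sq_sqrt (hc j).le, -act_apply]
      · intro k _ hk
        simp [hβ, ha, act_dg_apply, hξ, xi_apply, Ne.symm hk, -act_apply]
      · simp
    rw [hlin]
    refine (norm_add_le _ _).trans (add_le_add (hdiff.trans ?_) ?_)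
    · exact mul_le_mul_of_nonneg_left hnear hC
    · rw [hpe]; exact norm_inner_le_norm _ _
  have hS : ∑ i ∈ range K, o i ≤ N * √G := by
    have h := sq_sum_le_card_mul_sum_sq (s := range K) (f := o)
    rw [Finset.card_range] at h
    have hG0 : 0 ≤ G := le_trans (Finset.sum_nonneg fun i _ => sq_nonneg _) htot
    refine le_of_sq_le_sq ?_ (by positivity)
    rw [mul_pow, Real.sq_sqrt hG0]
    refine h.trans ?_
    rw [hK, Nat.cast_mul, sq]
    gcongr
  have hsumX : ε * ∑ i ∈ range K, ‖X i‖ ≤ N * √G + K * (C2 * ε ^ 2) := by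
    rw [Finset.mul_sum]
    refine (Finset.sum_le_sum fun i _ => hoff i).trans ?_
    rw [Finset.sum_add_distrib, Finset.sum_const, Finset.card_range, nsmul_eq_mul]
    linarith
  have hall : (K : ℝ) * ‖pairing Ω c A (fun j k => L j k) Z‖ ≤
      K * (C * e1) + ‖zv‖ * ∑ i ∈ range K, ‖X i‖ := by
    calc (K : ℝ) * ‖pairing Ω c A (fun j k => L j k) Z‖
        = ∑ _i ∈ range K, ‖pairing Ω c A (fun j k => L j k) Z‖ := by simp
      _ ≤ ∑ i ∈ range K, (C * e1 + ‖zv‖ * ‖X i‖) :=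
          Finset.sum_le_sum fun i hi => main i (Finset.mem_range.1 hi)
      _ = _ := by simp [Finset.sum_add_distrib, Finset.mul_sum]
  have hKpos : (0 : ℝ) < K := by rw [hK]; positivity
  have hsum2 : ∑ i ∈ range K, ‖X i‖ ≤ K * (√G + C2 * ε) := by
    have h' := mul_le_mul_of_nonneg_left hsumX hN'.le
    have e1' : (N : ℝ) * ε = 1 := mul_inv_cancel₀ hN'.ne'
    rw [← mul_assoc, e1', one_mul] at h'
    refine h'.trans (le_of_eq ?_)
    rw [hK, Nat.cast_mul]
    linear_combination (N : ℝ) * N * C2 * ε * e1'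
  rw [← hzn]
  refine le_of_mul_le_mul_left ?_ hKpos
  calc (K : ℝ) * ‖pairing Ω c A (fun j k => L j k) Z‖
      ≤ K * (C * e1) + ‖zv‖ * (K * (√G + C2 * ε)) :=
        hall.trans (by gcongr)
    _ = _ := by ring

theorem stmtDissip.{v} : Iface.StmtDissip.{v} := by
  intro H _ _ _ M Ω D hΩ d c A L Z δ η C hc h1 hδ hη hC hA hLM hLs hL0 htr hP
  dsimp only
  set Lm : Mat H d := CStarMatrix.ofMatrix L with hLm
  have hs : star Lm = Lm := CStarMatrix.ext fun j k => hLs k j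
  obtain ⟨C1, hC1, hq⟩ := exists_tw_bound D c hs (fun j k => hLM j k) fun j => hL0 j
  obtain ⟨C2, hC2, hB⟩ := exists_conjugate_bound Lm hs
  set D0 := drift D c L with hD0
  set Zn := √(∑ j, ∑ k, c k * ‖Z j k‖ ^ 2)
  set F : ℝ → ℝ := fun ε => Zn * (√(2 * √(η + 4 / δ * (D0 + 2 * C1 * ε)) + 2 * D0 + 4 * C1 * ε) +
    C2 * ε) + C * √(η + 4 / δ * (D0 + 2 * C1 * ε)) with hF
  have key : ∀ᶠ N : ℕ in atTop, ‖pairing Ω c A L Z‖ ≤ F ((N : ℝ)⁻¹) := by
    filter_upwards [eventually_gt_atTop 0] with N hN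
    have e0 : (0 : ℝ) ≤ (N : ℝ)⁻¹ := by positivity
    have e1 : (N : ℝ)⁻¹ ≤ 1 := inv_le_one_of_one_le₀ (by exact_mod_cast hN)
    obtain ⟨V, hVM, hV, hV', hVb⟩ := exists_step Lm hs (fun j k => hLM j k) e0
    exact bound_step D hΩ.norm hc h1 hδ hC hA (L := Lm) (fun j => hL0 j) hη
      htr hP hVM hV hV' hN (hq _ V e0 e1 hV hVb)
      (fun B hB1 => by simpa using hB _ V B e0 e1 hV hB1 hVb)
  have hlim : Tendsto (fun N : ℕ => F ((N : ℝ)⁻¹)) atTop (𝓝 (F 0)) :=
    (Continuous.tendsto (by fun_prop) 0).comp (tendsto_inv_atTop_zero.comp tendsto_natCast_atTop_atTop)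
  refine (ge_of_tendsto hlim key).trans ?_
  have D00 : 0 ≤ D0 := Real.sqrt_nonneg _
  have he : √(η + 4 / δ * D0) ≤ √η + 2 * √(2 * D0 / δ) := by
    have hx : 0 ≤ 4 / δ * D0 := by positivity
    have hs : √(η + 4 / δ * D0) ≤ √η + √(4 / δ * D0) := by
      rw [Real.sqrt_le_left (by positivity)]
      nlinarith [Real.sq_sqrt hη, Real.sq_sqrt hx, Real.sqrt_nonneg η, Real.sqrt_nonneg (4 / δ * D0)]
    refine hs.trans ?_
    gcongr
    rw [show (2 : ℝ) * √(2 * D0 / δ) = √(4 * (2 * D0 / δ)) by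
      rw [Real.sqrt_mul (by norm_num), show (4 : ℝ) = 2 ^ 2 by norm_num, Real.sqrt_sq (by norm_num)]]
    refine Real.sqrt_le_sqrt ?_
    have : 0 ≤ D0 / δ := by positivity
    rw [mul_div_assoc, div_mul_eq_mul_div]
    rw [mul_div_assoc]
    linarith
  simp only [hF, mul_zero, add_zero]
  gcongr
  nlinarith

end Vale.Agent.P132.Random
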