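import Vale.Agent.P132.Iface

/-!
# P132 Random: matrices over `M` acting on `H^(d × d)`
-/

namespace Vale.Agent.P132.Random

open scoped InnerProductSpace ComplexOrder
open Finset

universe u

set_option linter.unusedSectionVars false

variable {H : Type u} [NormedAddCommGroup H] [InnerProductSpace ℂ H] [CompleteSpace H] {d : ℕ}

/-- `d × d` matrices over `B(H)`. -/
abbrev Mat (H : Type u) [NormedAddCommGroup H] [InnerProductSpace ℂ H] (d : ℕ) :=
  CStarMatrix (Fin d) (Fin d) (H →L[ℂ] H)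

/-- The Hilbert space `H^(d × d)`. -/
abbrev L2 (H : Type u) (d : ℕ) := PiLp 2 fun _ : Fin d × Fin d => H

/-- Left multiplication. -/
noncomputable def act (X : Mat H d) : L2 H d →L[ℂ] L2 H d :=
  ((PiLp.continuousLinearEquiv 2 ℂ fun _ : Fin d × Fin d => H).symm :
      (Fin d × Fin d → H) →L[ℂ] L2 H d) ∘L
    (ContinuousLinearMap.pi fun p : Fin d × Fin d =>
      ∑ l, X p.1 l ∘L ContinuousLinearMap.proj (l, p.2)) ∘L
    ((PiLp.continuousLinearEquiv 2 ℂ fun _ : Fin d × Fin d => H) :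
      L2 H d →L[ℂ] (Fin d × Fin d → H))

@[simp] lemma act_apply (X : Mat H d) (η : L2 H d) (p : Fin d × Fin d) :
    act X η p = ∑ l, X p.1 l (η (l, p.2)) := by
  simp [act]

lemma act_mul (X Y : Mat H d) : act (X * Y) = act X * act Y := by
  refine ContinuousLinearMap.ext fun η => PiLp.ext fun p => ?_
  simp only [act_apply, CStarMatrix.mul_apply, mul_apply_eq_comp,
    FunLike.coe_sum, Finset.sum_apply, map_sum]
  exact Finset.sum_comm

lemma act_add (X Y : Mat H d) : act (X + Y) = act X + act Y := by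
  refine ContinuousLinearMap.ext fun η => PiLp.ext fun p => ?_
  simp [Finset.sum_add_distrib]

lemma act_smul (z : ℂ) (X : Mat H d) : act (z • X) = z • act X := by
  refine ContinuousLinearMap.ext fun η => PiLp.ext fun p => ?_
  simp [Finset.smul_sum]

lemma act_one : act (1 : Mat H d) = 1 := by
  refine ContinuousLinearMap.ext fun η => PiLp.ext fun p => ?_
  simp [CStarMatrix.one_apply, ite_apply, apply_ite]

lemma star_act (X : Mat H d) : star (act X) = act (star X) := by
  rw [ContinuousLinearMap.star_eq_adjoint]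
  refine ((ContinuousLinearMap.eq_adjoint_iff _ _).2 fun η θ => ?_).symm
  simp only [PiLp.inner_apply, act_apply, sum_inner, inner_sum, Fintype.sum_prod_type]
  rw [Finset.sum_comm]
  conv_rhs => rw [Finset.sum_comm]
  refine Finset.sum_congr rfl fun k _ => ?_
  rw [Finset.sum_comm]
  refine Finset.sum_congr rfl fun l _ => Finset.sum_congr rfl fun j _ => ?_
  rw [CStarMatrix.star_apply, ContinuousLinearMap.star_eq_adjoint,
    ContinuousLinearMap.adjoint_inner_left]

/-- Left multiplication as a star algebra homomorphism. -/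
noncomputable def actHom : Mat H d →⋆ₐ[ℂ] (L2 H d →L[ℂ] L2 H d) where
  toFun := act
  map_one' := act_one
  map_mul' := act_mul
  map_zero' := by
    refine ContinuousLinearMap.ext fun η => PiLp.ext fun p => ?_
    simp [CStarMatrix.zero_apply]
  map_add' := act_add
  commutes' z := by
    rw [Algebra.algebraMap_eq_smul_one, Algebra.algebraMap_eq_smul_one, act_smul, act_one]
  map_star' X := (star_act X).symm

/-- A diagonal matrix. -/
def dg (A : Fin d → H →L[ℂ] H) : Mat H d :=
  CStarMatrix.ofMatrix (Matrix.diagonal A)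

lemma dg_apply (A : Fin d → H →L[ℂ] H) (j k : Fin d) :
    dg A j k = if j = k then A j else 0 := by
  simp [dg, Matrix.diagonal_apply]

lemma act_dg_apply (A : Fin d → H →L[ℂ] H) (η : L2 H d) (p : Fin d × Fin d) :
    act (dg A) η p = A p.1 (η p) := by
  simp [dg_apply, ite_apply, apply_ite]

lemma norm_act_dg_le (A : Fin d → H →L[ℂ] H) (hA : ∀ j, ‖A j‖ ≤ 1) : ‖act (dg A)‖ ≤ 1 := by
  refine ContinuousLinearMap.opNorm_le_bound _ zero_le_one fun η => ?_
  rw [one_mul]
  refine le_of_sq_le_sq ?_ (norm_nonneg _)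
  rw [PiLp.norm_sq_eq_of_L2, PiLp.norm_sq_eq_of_L2]
  refine Finset.sum_le_sum fun p _ => ?_
  rw [act_dg_apply]
  have := (A p.1).le_of_opNorm_le (hA p.1) (η p)
  rw [one_mul] at this
  gcongr

/-- All entries in `M`. -/
def InM (M : VonNeumannAlgebra H) (X : Mat H d) : Prop := ∀ j k, X j k ∈ M

lemma InM.mul {M : VonNeumannAlgebra H} {X Y : Mat H d} (hX : InM M X) (hY : InM M Y) :
    InM M (X * Y) := fun j k => by
  rw [CStarMatrix.mul_apply]
  exact sum_mem fun l _ => mul_mem (hX j l) (hY l k)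

lemma InM.star {M : VonNeumannAlgebra H} {X : Mat H d} (hX : InM M X) : InM M (star X) :=
  fun j k => by
    rw [CStarMatrix.star_apply]
    exact star_mem (hX k j)

lemma inM_dg {M : VonNeumannAlgebra H} {A : Fin d → H →L[ℂ] H} (hA : ∀ j, A j ∈ M) :
    InM M (dg A) := fun j k => by
  rw [dg_apply]
  split_ifs
  · exact hA j
  · exact zero_mem _

lemma inM_one (M : VonNeumannAlgebra H) : InM M (1 : Mat H d) := fun j k => by
  rw [CStarMatrix.one_apply]
  split_ifs
  · exact one_mem _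
  · exact zero_mem _

variable {M : VonNeumannAlgebra H} {Ω : H}

lemma J_zero (D : ModData M Ω) : D.J 0 = 0 := by
  simpa using D.J_smul 0 0

/-- `η ↦ η*`, entrywise `J` and transpose. -/
noncomputable def conj (D : ModData M Ω) (η : L2 H d) : L2 H d :=
  WithLp.toLp 2 fun p => D.J (η (p.2, p.1))

@[simp] lemma conj_apply (D : ModData M Ω) (η : L2 H d) (p : Fin d × Fin d) :
    conj D η p = D.J (η (p.2, p.1)) := rfl

lemma conj_add (D : ModData M Ω) (η θ : L2 H d) : conj D (η + θ) = conj D η + conj D θ := by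
  refine PiLp.ext fun p => ?_
  simp [D.J_add]

lemma conj_smul (D : ModData M Ω) (z : ℂ) (η : L2 H d) :
    conj D (z • η) = starRingEnd ℂ z • conj D η := by
  refine PiLp.ext fun p => ?_
  simp [D.J_smul]

lemma conj_conj (D : ModData M Ω) (η : L2 H d) : conj D (conj D η) = η := by
  refine PiLp.ext fun p => ?_
  simp [D.J_invol]

lemma norm_J (D : ModData M Ω) (v : H) : ‖D.J v‖ = ‖v‖ := by
  rw [← sq_eq_sq₀ (norm_nonneg _) (norm_nonneg _), @norm_sq_eq_re_inner ℂ,
    @norm_sq_eq_re_inner ℂ, D.J_inner]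

lemma norm_conj (D : ModData M Ω) (η : L2 H d) : ‖conj D η‖ = ‖η‖ := by
  rw [← sq_eq_sq₀ (norm_nonneg _) (norm_nonneg _), PiLp.norm_sq_eq_of_L2, PiLp.norm_sq_eq_of_L2]
  exact Fintype.sum_equiv (Equiv.prodComm _ _) _ _ fun p => by simp [norm_J, Prod.swap]

/-- `conj` as an additive homomorphism. -/
noncomputable def conjHom (D : ModData M Ω) : L2 H d →+ L2 H d :=
  AddMonoidHom.mk' (conj D) (conj_add D)

lemma conj_sub (D : ModData M Ω) (η θ : L2 H d) : conj D (η - θ) = conj D η - conj D θ :=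
  map_sub (conjHom D) η θ

lemma conj_sum (D : ModData M Ω) {ι : Type*} (s : Finset ι) (f : ι → L2 H d) :
    conj D (∑ i ∈ s, f i) = ∑ i ∈ s, conj D (f i) :=
  map_sum (conjHom D) f s

lemma J_sum (D : ModData M Ω) {ι : Type*} (s : Finset ι) (f : ι → H) :
    D.J (∑ i ∈ s, f i) = ∑ i ∈ s, D.J (f i) :=
  map_sum (AddMonoidHom.mk' D.J D.J_add) f s

/-- Left and right actions commute. -/
lemma act_conj_comm (D : ModData M Ω) {X Y : Mat H d} (hX : InM M X) (hY : InM M Y)
    (η : L2 H d) :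
    act Y (conj D (act X (conj D η))) = conj D (act X (conj D (act Y η))) := by
  refine PiLp.ext fun p => ?_
  simp only [act_apply, conj_apply, J_sum, map_sum]
  rw [Finset.sum_comm]
  exact Finset.sum_congr rfl fun l _ => Finset.sum_congr rfl fun m _ =>
    D.J_comm _ (hY _ _) _ (hX _ _) _

/-- `ξ = diag (√c_j Ω)`. -/
noncomputable def xi (Ω : H) (c : Fin d → ℝ) : L2 H d :=
  WithLp.toLp 2 fun p => if p.1 = p.2 then (√(c p.1) : ℂ) • Ω else 0

lemma xi_apply (Ω : H) (c : Fin d → ℝ) (p : Fin d × Fin d) :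
    xi Ω c p = if p.1 = p.2 then (√(c p.1) : ℂ) • Ω else 0 := rfl

lemma act_xi (X : Mat H d) (Ω : H) (c : Fin d → ℝ) (p : Fin d × Fin d) :
    act X (xi Ω c) p = (√(c p.2) : ℂ) • X p.1 p.2 Ω := by
  simp [xi_apply, apply_ite]

lemma conj_xi (D : ModData M Ω) (c : Fin d → ℝ) : conj D (xi Ω c) = xi Ω c := by
  refine PiLp.ext fun p => ?_
  simp only [conj_apply, xi_apply]
  by_cases h : p.2 = p.1
  · rw [if_pos h, if_pos h.symm, D.J_smul, D.J_omega, Complex.conj_ofReal, h]
  · rw [if_neg h, if_neg (Ne.symm h), J_zero]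

lemma norm_xi (c : Fin d → ℝ) (hc : ∀ j, 0 < c j) (h1 : ∑ j, c j = 1) (hΩ : ‖Ω‖ = 1) :
    ‖xi Ω c‖ = 1 := by
  rw [← sq_eq_sq₀ (norm_nonneg _) zero_le_one, PiLp.norm_sq_eq_of_L2, Fintype.sum_prod_type,
    one_pow, ← h1]
  refine Finset.sum_congr rfl fun j _ => ?_
  rw [Finset.sum_eq_single j]
  · simp [xi_apply, norm_smul, hΩ, abs_of_nonneg (Real.sqrt_nonneg _),
      Real.sq_sqrt (hc j).le]
  · intro k _ hk
    simp [xi_apply, Ne.symm hk]
  · simp

/-- The commutator vector `W ξ - ξ W`. -/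
noncomputable def cv (D : ModData M Ω) (c : Fin d → ℝ) (W : Mat H d) : L2 H d :=
  act W (xi Ω c) - conj D (act (star W) (xi Ω c))

lemma cv_apply (D : ModData M Ω) (c : Fin d → ℝ) (W : Mat H d) (p : Fin d × Fin d) :
    cv D c W p = cvec D c (fun j k => W j k) p.1 p.2 := by
  simp [cv, cvec, act_xi, CStarMatrix.star_apply, D.J_smul, -act_apply, -Complex.coe_smul]

lemma norm_cv_sq (D : ModData M Ω) (c : Fin d → ℝ) (W : Mat H d) :
    ‖cv D c W‖ ^ 2 = cent2 D c fun j k => W j k := by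
  rw [PiLp.norm_sq_eq_of_L2, Fintype.sum_prod_type]
  simp [cent2, cv_apply]

lemma comm2_eq (Ω : H) (c : Fin d → ℝ) (hc : ∀ j, 0 < c j) (A : Fin d → H →L[ℂ] H)
    (W : Mat H d) :
    comm2 Ω c A (fun j k => W j k) =
      ‖act (dg A) (act W (xi Ω c)) - act W (act (dg A) (xi Ω c))‖ ^ 2 := by
  rw [PiLp.norm_sq_eq_of_L2, Fintype.sum_prod_type, comm2]
  refine Finset.sum_congr rfl fun j _ => Finset.sum_congr rfl fun k _ => ?_
  have h1 : act (dg A) (act W (xi Ω c)) (j, k) = (√(c k) : ℂ) • A j (W j k Ω) := by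
    rw [act_dg_apply, act_xi, map_smul]
  have h2 : act W (act (dg A) (xi Ω c)) (j, k) = (√(c k) : ℂ) • W j k (A k Ω) := by
    rw [act_apply, Finset.sum_eq_single k]
    · simp [act_dg_apply, xi_apply, -act_apply]
    · intro l _ hl
      simp [act_dg_apply, xi_apply, hl, -act_apply]
    · simp
  rw [WithLp.ofLp_sub, Pi.sub_apply, h1, h2, ← smul_sub, norm_smul, mul_pow,
    Complex.norm_real, Real.norm_of_nonneg (Real.sqrt_nonneg _), Real.sq_sqrt (hc k).le]
  rfl

end Vale.Agent.P132.Random
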