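import Vale.Agent.P132.Random.Cayley

/-!
# P132 Random: one step of the walk, to second order
-/

namespace Vale.Agent.P132.Random

open scoped InnerProductSpace
open Finset

universe u

set_option linter.unusedSectionVars false

variable {H : Type u} [NormedAddCommGroup H] [InnerProductSpace ℂ H] [CompleteSpace H] {d : ℕ}
  {M : VonNeumannAlgebra H} {Ω : H}

/-- The projection on diagonal vectors. -/
noncomputable def pd : L2 H d →L[ℂ] L2 H d :=
  ((PiLp.continuousLinearEquiv 2 ℂ fun _ : Fin d × Fin d => H).symm :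
      (Fin d × Fin d → H) →L[ℂ] L2 H d) ∘L
    (ContinuousLinearMap.pi fun p : Fin d × Fin d =>
      if p.1 = p.2 then ContinuousLinearMap.proj p else 0) ∘L
    ((PiLp.continuousLinearEquiv 2 ℂ fun _ : Fin d × Fin d => H) :
      L2 H d →L[ℂ] (Fin d × Fin d → H))

@[simp] lemma pd_apply (η : L2 H d) (p : Fin d × Fin d) :
    pd η p = if p.1 = p.2 then η p else 0 := by
  simp [pd]
  split_ifs <;> simp

lemma pd_sq_add (η : L2 H d) : ‖pd η‖ ^ 2 + ‖η - pd η‖ ^ 2 = ‖η‖ ^ 2 := by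
  simp only [PiLp.norm_sq_eq_of_L2, ← Finset.sum_add_distrib]
  refine Finset.sum_congr rfl fun p _ => ?_
  simp only [WithLp.ofLp_sub, Pi.sub_apply, pd_apply]
  split_ifs <;> simp

lemma norm_pd_le (η : L2 H d) : ‖pd η‖ ≤ ‖η‖ := by
  refine le_of_sq_le_sq ?_ (norm_nonneg _)
  nlinarith [pd_sq_add η, sq_nonneg ‖η - pd η‖]

lemma inner_pd (η θ : L2 H d) (h : pd η = η) : ⟪η, pd θ⟫_ℂ = ⟪η, θ⟫_ℂ := by
  simp only [PiLp.inner_apply, pd_apply]
  refine Finset.sum_congr rfl fun p _ => ?_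
  split_ifs with hp
  · rfl
  · rw [← h]; simp [hp]

lemma pd_xi (Ω : H) (c : Fin d → ℝ) : pd (xi Ω c) = xi Ω c := by
  refine PiLp.ext fun p => ?_
  simp +contextual [xi_apply]

/-- `η ↦ W η W*`. -/
noncomputable def tw (D : ModData M Ω) (W : Mat H d) : L2 H d →ₗ[ℂ] L2 H d where
  toFun η := act W (conj D (act W (conj D η)))
  map_add' η θ := by simp [conj_add]
  map_smul' z η := by simp [conj_smul]

lemma tw_apply (D : ModData M Ω) (W : Mat H d) (η : L2 H d) :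
    tw D W η = act W (conj D (act W (conj D η))) := rfl

lemma starL_add (P R : L2 H d →L[ℂ] L2 H d) : star (P + R) = star P + star R := star_add P R

lemma starL_smul (z : ℂ) (P : L2 H d →L[ℂ] L2 H d) : star (z • P) = star z • star P :=
  star_smul z P

lemma norm_starL (P : L2 H d →L[ℂ] L2 H d) : ‖star P‖ = ‖P‖ := norm_star P

lemma starL_one : star (1 : L2 H d →L[ℂ] L2 H d) = 1 := star_one _

lemma tw_mul (D : ModData M Ω) {W X : Mat H d} (hW : InM M W) (hX : InM M X) (η : L2 H d) :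
    tw D (W * X) η = tw D W (tw D X η) := by
  rw [tw_apply, tw_apply D W, tw_apply D X, ← act_conj_comm D hW hX, conj_conj]
  simp [act_mul]

lemma norm_act_isometry {W : Mat H d} (h : star W * W = 1) (η : L2 H d) :
    ‖act W η‖ = ‖η‖ := by
  have h' : star (act W) * act W = 1 := by rw [star_act, ← act_mul, h, act_one]
  exact (ContinuousLinearMap.norm_map_iff_adjoint_comp_self _).2 h' η

lemma norm_act_le_one {W : Mat H d} (h : star W * W = 1) : ‖act W‖ ≤ 1 :=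
  ContinuousLinearMap.opNorm_le_bound _ zero_le_one fun η => by
    rw [norm_act_isometry h, one_mul]

lemma norm_tw (D : ModData M Ω) {W : Mat H d} (h : star W * W = 1) (η : L2 H d) :
    ‖tw D W η‖ = ‖η‖ := by
  rw [tw_apply, norm_act_isometry h, norm_conj, norm_act_isometry h, norm_conj]

/-- `[L,[L,ξ]]`. -/
noncomputable def dcv (D : ModData M Ω) (c : Fin d → ℝ) (L : Mat H d) : L2 H d :=
  act L (cv D c L) - conj D (act (star L) (conj D (cv D c L)))

lemma drift_eq (D : ModData M Ω) (c : Fin d → ℝ) (L : Mat H d) :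
    drift D c (fun j k => L j k) = ‖pd (dcv D c L)‖ := by
  rw [drift, ← Real.sqrt_sq (norm_nonneg (pd (dcv D c L))), PiLp.norm_sq_eq_of_L2,
    Fintype.sum_prod_type]
  congr 1
  refine Finset.sum_congr rfl fun j _ => ?_
  symm
  refine (Finset.sum_eq_single j ?_ ?_).trans ?_
  rotate_left 2
  · simp [dcv, cv_apply, J_sum, CStarMatrix.star_apply, Finset.sum_sub_distrib]
  · intro k _ hk
    simp [Ne.symm hk]
  · simp

/-- The third order remainder. -/
lemma rest_bound {E : Type*} [NormedAddCommGroup E] [NormedSpace ℂ E] (l W R : E →L[ℂ] E) {ε : ℝ}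
    (h0 : 0 ≤ ε) (h1 : ε ≤ 1) (hW : ‖W‖ ≤ 1) (hR : ‖R‖ ≤ ε ^ 3 * ‖l‖ ^ 3)
    (ξ a b a' b' r : E) (ha : ‖a'‖ = ‖a‖) (hb : ‖b'‖ = ‖b‖) (hr : ‖r‖ = ‖R ξ‖) :
    ‖R ξ - ((ε : ℂ) * Complex.I) • (-(((ε : ℂ) ^ 2 / 2) • l (l a')) + R a') -
        ((ε : ℂ) ^ 2 / 2) •
          (((ε : ℂ) * Complex.I) • l b' - ((ε : ℂ) ^ 2 / 2) • l (l b') + R b') + W r‖ ≤
      ((2 * ‖l‖ ^ 3) * ‖ξ‖ + (‖l‖ ^ 2 + ‖l‖ ^ 3) * ‖a‖ +
        (‖l‖ + ‖l‖ ^ 2 + ‖l‖ ^ 3) * ‖b‖) * ε ^ 3 := by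
  set n := ‖l‖
  have n0 : 0 ≤ n := norm_nonneg _
  have he2 : ε ^ 2 ≤ ε := by nlinarith
  have he3 : ε ^ 3 ≤ ε ^ 2 := by nlinarith [pow_nonneg h0 2]
  have hn1 : ‖(ε : ℂ) * Complex.I‖ = ε := by simp [abs_of_nonneg h0]
  have hn2 : ‖(ε : ℂ) ^ 2 / 2‖ = ε ^ 2 / 2 := by simp
  have hl2 : ∀ v, ‖l (l v)‖ ≤ n * n * ‖v‖ := fun v =>
    (l.le_opNorm _).trans (by rw [mul_assoc]; gcongr; exact l.le_opNorm _)
  have hRv : ∀ v, ‖R v‖ ≤ ε ^ 3 * n ^ 3 * ‖v‖ := fun v => R.le_of_opNorm_le hR v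
  have bd1 : ‖-(((ε : ℂ) ^ 2 / 2) • l (l a')) + R a'‖ ≤ ε ^ 2 * ((n ^ 2 + n ^ 3) * ‖a‖) := by
    refine (norm_add_le _ _).trans ?_
    rw [norm_neg, norm_smul, hn2]
    have h2 := mul_le_mul_of_nonneg_left (hl2 a') (by positivity : 0 ≤ ε ^ 2 / 2)
    have h3 := hRv a'
    rw [ha] at h2 h3
    have h4 := mul_le_mul_of_nonneg_right he3 (by positivity : 0 ≤ n ^ 3 * ‖a‖)
    have h5 : 0 ≤ ε ^ 2 * (n ^ 2 * ‖a‖) := by positivity
    linarith
  have bd2 : ‖((ε : ℂ) * Complex.I) • l b' - ((ε : ℂ) ^ 2 / 2) • l (l b') + R b'‖ ≤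
      ε * ((n + n ^ 2 + n ^ 3) * ‖b‖) := by
    refine ((norm_add_le _ _).trans (add_le_add (norm_sub_le _ _) le_rfl)).trans ?_
    rw [norm_smul, norm_smul, hn1, hn2]
    have h2 := mul_le_mul_of_nonneg_left (hl2 b') (by positivity : 0 ≤ ε ^ 2 / 2)
    have h3 := hRv b'
    have h4 := mul_le_mul_of_nonneg_left (l.le_opNorm b') h0
    rw [hb] at h2 h3 h4
    have h5 := mul_le_mul_of_nonneg_right (he3.trans he2) (by positivity : 0 ≤ n ^ 3 * ‖b‖)
    have h6 := mul_le_mul_of_nonneg_right he2 (by positivity : 0 ≤ n ^ 2 * ‖b‖)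
    have h7 : 0 ≤ ε * (n ^ 2 * ‖b‖) := by positivity
    linarith
  refine ((norm_add_le _ _).trans (add_le_add ((norm_sub_le _ _).trans
    (add_le_add (norm_sub_le _ _) le_rfl)) le_rfl)).trans ?_
  rw [norm_smul, norm_smul, hn1, hn2]
  have q0 := W.le_of_opNorm_le hW r
  rw [one_mul, hr] at q0
  have q1 := mul_le_mul_of_nonneg_left bd1 h0
  have q2 := mul_le_mul_of_nonneg_left bd2 (by positivity : 0 ≤ ε ^ 2 / 2)
  have q3 := hRv ξ
  have q4 : 0 ≤ ε ^ 3 * ((n + n ^ 2 + n ^ 3) * ‖b‖) := by positivity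
  linarith

/-- Second order expansion of `V ξ V*`. -/
lemma exists_tw_bound (D : ModData M Ω) (c : Fin d → ℝ) {L : Mat H d} (hL : star L = L)
    (hLM : InM M L) (hL0 : ∀ j, L j j = 0) :
    ∃ C : ℝ, 0 ≤ C ∧ ∀ (ε : ℝ) (V : Mat H d), 0 ≤ ε → ε ≤ 1 → star V * V = 1 →
      ‖act V - 1 - ((ε : ℂ) * Complex.I) • act L + ((ε : ℂ) ^ 2 / 2) • (act L * act L)‖ ≤
        ε ^ 3 * ‖act L‖ ^ 3 →
      ‖pd (tw D V (xi Ω c)) - xi Ω c‖ ≤
        ε ^ 2 / 2 * drift D c (fun j k => L j k) + C * ε ^ 3 := by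
  set ξ := xi Ω c with hξ
  set l := act L with hl
  set a := l ξ with ha
  set b := l a with hb
  set n := ‖l‖ with hn
  have n0 : 0 ≤ n := norm_nonneg _
  refine ⟨(2 * n ^ 3) * ‖ξ‖ + (n ^ 2 + n ^ 3) * ‖a‖ + (n + n ^ 2 + n ^ 3) * ‖b‖,
    by positivity, fun ε V h0 h1 hV hR => ?_⟩
  set R := act V - 1 - ((ε : ℂ) * Complex.I) • l + ((ε : ℂ) ^ 2 / 2) • (l * l) with hRdef
  have hVe : act V = 1 + ((ε : ℂ) * Complex.I) • l - ((ε : ℂ) ^ 2 / 2) • (l * l) + R := by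
    rw [hRdef]; abel
  have hV1 := norm_act_le_one hV
  set r1 := -(((ε : ℂ) ^ 2 / 2) • l (l (conj D a))) + R (conj D a) with hr1
  set r2 := ((ε : ℂ) * Complex.I) • l (conj D b) - ((ε : ℂ) ^ 2 / 2) • l (l (conj D b)) +
    R (conj D b) with hr2
  have hVa : act V (conj D a) = conj D a + ((ε : ℂ) * Complex.I) • l (conj D a) + r1 := by
    rw [hVe, hr1]; simp [sub_eq_add_neg, add_assoc]
  have hVb : act V (conj D b) = conj D b + r2 := by
    rw [hVe, hr2]; simp [sub_eq_add_neg, add_assoc]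
  have hVξ : act V ξ = ξ + ((ε : ℂ) * Complex.I) • a - ((ε : ℂ) ^ 2 / 2) • b + R ξ := by
    rw [hVe]; simp [ha, hb]
  set rest := R ξ - ((ε : ℂ) * Complex.I) • r1 - ((ε : ℂ) ^ 2 / 2) • r2 +
    act V (conj D (R ξ)) with hrest
  have hcv : cv D c L = a - conj D a := by rw [cv, hL]
  have hz : dcv D c L = b + conj D b - (2 : ℂ) • l (conj D a) := by
    rw [dcv, hcv, hL, ← hl, map_sub, conj_sub, conj_conj, map_sub, conj_sub,
      show conj D (l (conj D a)) = l (conj D a) from ?_, hb, two_smul]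
    · abel
    · have hc := act_conj_comm D hLM hLM ξ
      rw [conj_xi] at hc
      exact hc.symm
  have hg : conj D (act V ξ) = ξ - ((ε : ℂ) * Complex.I) • conj D a -
      ((ε : ℂ) ^ 2 / 2) • conj D b + conj D (R ξ) := by
    have q1 : starRingEnd ℂ ((ε : ℂ) * Complex.I) = -((ε : ℂ) * Complex.I) := by simp
    have q2 : starRingEnd ℂ ((ε : ℂ) ^ 2 / 2) = (ε : ℂ) ^ 2 / 2 := by simp [map_ofNat]
    rw [hVξ, conj_add, conj_sub, conj_add, conj_smul, conj_smul, q1, q2, hξ, conj_xi]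
    module
  have main : tw D V ξ = ξ + ((ε : ℂ) * Complex.I) • cv D c L -
      ((ε : ℂ) ^ 2 / 2) • dcv D c L + rest := by
    have h1 : tw D V ξ = act V (conj D (act V ξ)) := by rw [tw_apply, hξ, conj_xi]
    rw [h1, hg]
    simp only [map_add, map_sub, map_smul]
    rw [hVξ, hVa, hVb, hcv, hz, hrest]
    simp only [smul_add, smul_sub, smul_smul]
    have hI : ((ε : ℂ) * Complex.I) * ((ε : ℂ) * Complex.I) = -(ε : ℂ) ^ 2 := by
      linear_combination (ε : ℂ) ^ 2 * Complex.I_mul_I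
    rw [hI]
    match_scalars <;> ring
  have hfirst : pd (cv D c L) = 0 := by
    refine PiLp.ext fun p => ?_
    rw [pd_apply, cv_apply, cvec]
    split_ifs with hp
    · simp [← hp, hL0, J_zero]
    · simp
  have e : pd (tw D V ξ) - ξ = -(((ε : ℂ) ^ 2 / 2) • pd (dcv D c L)) + pd rest := by
    rw [main]
    simp only [map_add, map_sub, map_smul, hfirst, smul_zero, hξ, pd_xi]
    abel
  rw [e]
  refine (norm_add_le _ _).trans (add_le_add ?_ ?_)
  · rw [norm_neg, norm_smul, drift_eq]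
    simp
  · exact (norm_pd_le _).trans (rest_bound l (act V) R h0 h1 hV1 hR ξ a b (conj D a) (conj D b)
      (conj D (R ξ)) (norm_conj D a) (norm_conj D b) (norm_conj D (R ξ)))

/-- First order expansion of `V* B V`. -/
lemma exists_conjugate_bound (L : Mat H d) (hL : star L = L) :
    ∃ C : ℝ, 0 ≤ C ∧ ∀ (ε : ℝ) (V : Mat H d) (B : L2 H d →L[ℂ] L2 H d), 0 ≤ ε → ε ≤ 1 →
      star V * V = 1 → ‖B‖ ≤ 1 →
      ‖act V - 1 - ((ε : ℂ) * Complex.I) • act L + ((ε : ℂ) ^ 2 / 2) • (act L * act L)‖ ≤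
        ε ^ 3 * ‖act L‖ ^ 3 →
      ‖star (act V) * B * act V - B -
        ((ε : ℂ) * Complex.I) • (B * act L - act L * B)‖ ≤ C * ε ^ 2 := by
  set l := act L with hl
  set n := ‖l‖ with hn
  have n0 : 0 ≤ n := norm_nonneg _
  have hsl : star l = l := by rw [hl, star_act, hL]
  refine ⟨(n ^ 2 + n ^ 3) * (2 + n) + n ^ 2, by positivity, fun ε V B h0 h1 hV hB hR => ?_⟩
  set R := act V - (1 + ((ε : ℂ) * Complex.I) • l) with hRdef
  have hRn : ‖R‖ ≤ ε ^ 2 * (n ^ 2 + n ^ 3) := by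
    have e : R = (act V - 1 - ((ε : ℂ) * Complex.I) • l + ((ε : ℂ) ^ 2 / 2) • (l * l)) -
        ((ε : ℂ) ^ 2 / 2) • (l * l) := by rw [hRdef]; abel
    rw [e]
    refine (norm_sub_le _ _).trans ((add_le_add hR le_rfl).trans ?_)
    rw [norm_smul, show ‖(ε : ℂ) ^ 2 / 2‖ = ε ^ 2 / 2 by simp]
    have q := mul_le_mul_of_nonneg_left (norm_mul_le l l) (by positivity : 0 ≤ ε ^ 2 / 2)
    have : ε ^ 3 * n ^ 3 ≤ ε ^ 2 * n ^ 3 := by
      gcongr ?_ * _; nlinarith [pow_nonneg h0 2]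
    nlinarith [mul_nonneg (pow_nonneg h0 2) (pow_nonneg n0 2)]
  set P := (1 : L2 H d →L[ℂ] L2 H d) + ((ε : ℂ) * Complex.I) • l with hP
  have hVe : act V = P + R := by rw [hRdef]; abel
  have hsP : star P = 1 - ((ε : ℂ) * Complex.I) • l := by
    rw [hP, starL_add, starL_one, starL_smul, hsl, Complex.star_def, map_mul, Complex.conj_ofReal,
      Complex.conj_I, mul_neg]
    module
  have hPn : ‖star P‖ ≤ 1 + n := by
    rw [norm_starL, hP]
    refine (norm_add_le _ _).trans (add_le_add ContinuousLinearMap.norm_id_le ?_)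
    rw [norm_smul]
    simp [abs_of_nonneg h0]
    exact mul_le_of_le_one_left n0 h1
  have e : star (act V) * B * act V - B - ((ε : ℂ) * Complex.I) • (B * l - l * B) =
      star R * (B * act V) + star P * (B * R) + ((ε : ℂ) ^ 2) • (l * B * l) := by
    calc _ = star R * (B * act V) + star P * (B * R) +
          (star P * B * P - B - ((ε : ℂ) * Complex.I) • (B * l - l * B)) := by
          rw [hVe, starL_add]; noncomm_ring
      _ = _ := by
          rw [hsP, hP]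
          simp only [sub_mul, mul_add, one_mul, mul_one, smul_mul_assoc, mul_smul_comm, smul_sub,
            smul_smul, mul_assoc]
          match_scalars <;> first
            | ring1
            | (ring_nf; simp [Complex.I_sq])
  rw [e]
  have hV1 := norm_act_le_one hV
  have t1 : ‖star R * (B * act V)‖ ≤ ‖R‖ := by
    refine (norm_mul_le _ _).trans ?_
    rw [norm_starL]
    exact mul_le_of_le_one_right (norm_nonneg _)
      ((norm_mul_le _ _).trans (mul_le_one₀ hB (norm_nonneg _) hV1))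
  have t2 : ‖star P * (B * R)‖ ≤ (1 + n) * ‖R‖ := by
    refine (norm_mul_le _ _).trans (mul_le_mul hPn ?_ (norm_nonneg _) (by positivity))
    exact (norm_mul_le _ _).trans (mul_le_of_le_one_left (norm_nonneg _) hB)
  have t3 : ‖((ε : ℂ) ^ 2) • (l * B * l)‖ ≤ ε ^ 2 * n ^ 2 := by
    rw [norm_smul, show ‖(ε : ℂ) ^ 2‖ = ε ^ 2 by simp]
    gcongr
    calc ‖l * B * l‖ ≤ ‖l‖ * ‖B‖ * ‖l‖ := norm_mul₃_le
      _ ≤ n * 1 * n := by gcongr
      _ = n ^ 2 := by ring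
  refine (norm_add₃_le).trans ((add_le_add (add_le_add t1 t2) t3).trans ?_)
  nlinarith

end Vale.Agent.P132.Random
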