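import Vale.Agent.P132.Random.Step

/-!
# P132 Random: random signs and the walk
-/

namespace Vale.Agent.P132.Random

open scoped InnerProductSpace
open Finset

universe u

set_option linter.unusedSectionVars false

variable {H : Type u} [NormedAddCommGroup H] [InnerProductSpace ℂ H] [CompleteSpace H] {d : ℕ}
  {M : VonNeumannAlgebra H} {Ω : H}

/-- A sign. -/
def sgn (r : Fin d → Bool) (j : Fin d) : ℂ := if r j then 1 else -1

lemma sgn_mul_self (r : Fin d → Bool) (j : Fin d) : sgn r j * sgn r j = 1 := by
  unfold sgn; split_ifs <;> simp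

lemma conj_sgn (r : Fin d → Bool) (j : Fin d) : starRingEnd ℂ (sgn r j) = sgn r j := by
  unfold sgn; split_ifs <;> simp

/-- The average over a finite type. -/
noncomputable def av {ι : Type*} [Fintype ι] {E : Type*} [AddCommMonoid E] [Module ℂ E]
    (f : ι → E) : E :=
  (Fintype.card ι : ℂ)⁻¹ • ∑ i, f i

lemma av_sgn (j k : Fin d) :
    av (fun r : Fin d → Bool => sgn r j * sgn r k) = if j = k then 1 else 0 := by
  have hc : (Fintype.card (Fin d → Bool) : ℂ) ≠ 0 := Nat.cast_ne_zero.2 Fintype.card_ne_zero
  split_ifs with h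
  · subst h
    simp only [av, sgn_mul_self, Finset.sum_const, Finset.card_univ, nsmul_eq_mul, mul_one,
      smul_eq_mul, inv_mul_cancel₀ hc]
  · have hinv : Function.Involutive fun r : Fin d → Bool => Function.update r j (!r j) := by
      intro r
      funext i
      by_cases hi : i = j <;> simp [hi]
    have hneg : ∀ r : Fin d → Bool,
        sgn (Function.update r j (!r j)) j * sgn (Function.update r j (!r j)) k =
          -(sgn r j * sgn r k) := by
      intro r
      cases hr : r j <;> cases hk : r k <;> simp [sgn, hr, hk, Ne.symm h]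
    have hs : ∑ r : Fin d → Bool, sgn r j * sgn r k = 0 := by
      have := Fintype.sum_equiv hinv.toPerm
        (fun r => -(sgn r j * sgn r k)) (fun r => sgn r j * sgn r k) fun r => (hneg r).symm
      rw [Finset.sum_neg_distrib] at this
      exact eq_zero_of_neg_eq_self this
    rw [av, hs, smul_zero]
where
  eq_zero_of_neg_eq_self {z : ℂ} (h : -z = z) : z = 0 := by linear_combination -h / 2

/-- A diagonal sign matrix. -/
noncomputable def us (r : Fin d → Bool) : Mat H d := dg fun j => sgn r j • (1 : H →L[ℂ] H)

lemma inM_us (r : Fin d → Bool) : InM M (us (H := H) r) :=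
  inM_dg fun _ => M.toStarSubalgebra.smul_mem (one_mem M.toStarSubalgebra) _

lemma star_us (r : Fin d → Bool) : star (us (H := H) r) = us r := by
  refine CStarMatrix.ext fun j k => ?_
  rw [CStarMatrix.star_apply, us, dg_apply, dg_apply]
  by_cases h : j = k
  · subst h
    rw [if_pos rfl, star_smul, star_one, Complex.star_def, conj_sgn]
  · simp [h, Ne.symm h]

lemma us_sq (r : Fin d → Bool) : us (H := H) r * us r = 1 := by
  refine CStarMatrix.ext fun j k => ?_
  rw [us, dg_mul, dg_apply, CStarMatrix.one_apply]
  split_ifs with h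
  · subst h
    rw [smul_mul_smul_comm, sgn_mul_self, one_mul, one_smul]
  · simp

lemma tw_us (D : ModData M Ω) (r : Fin d → Bool) (η : L2 H d) (p : Fin d × Fin d) :
    tw D (us r) η p = (sgn r p.1 * sgn r p.2) • η p := by
  rw [tw_apply, us, act_dg_apply, conj_apply, act_dg_apply, conj_apply]
  simp [D.J_smul, conj_sgn, D.J_invol, smul_smul, mul_comm]

lemma av_tw_us (D : ModData M Ω) (η : L2 H d) :
    av (fun r : Fin d → Bool => tw D (us r) η) = pd η := by
  refine PiLp.ext fun p => ?_
  simp only [av, WithLp.ofLp_smul, Pi.smul_apply, WithLp.ofLp_sum, Finset.sum_apply, tw_us,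
    pd_apply, ← Finset.sum_smul, smul_smul]
  have := av_sgn p.1 p.2
  rw [av, smul_eq_mul] at this
  rw [this, ite_smul, one_smul, zero_smul]

lemma tw_us_diag (D : ModData M Ω) (r : Fin d → Bool) {η : L2 H d} (h : pd η = η) :
    tw D (us r) η = η := by
  refine PiLp.ext fun p => ?_
  rw [tw_us, ← h, pd_apply]
  split_ifs with hp
  · rw [← hp, sgn_mul_self, one_smul]
  · rw [smul_zero]

lemma av_us_mul_us (X : Mat H d) :
    av (fun r : Fin d → Bool => us r * X * us r) = dg fun j => X j j := by
  refine CStarMatrix.ext fun j k => ?_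
  have e : ∀ r, (us r * X * us r : Mat H d) j k = (sgn r j * sgn r k) • X j k := fun r => by
    rw [us, mul_dg, dg_mul, smul_mul_assoc, one_mul, mul_smul_comm, mul_one, smul_smul, mul_comm]
  rw [av, CStarMatrix.smul_apply]
  have hsum : (∑ r : Fin d → Bool, us r * X * us r : Mat H d) j k =
      ∑ r : Fin d → Bool, (us r * X * us r : Mat H d) j k :=
    map_sum (AddMonoidHom.mk' (fun Y : Mat H d => Y j k) fun _ _ => rfl) _ _
  rw [hsum]
  simp only [e, ← Finset.sum_smul, smul_smul]
  have := av_sgn j k
  rw [av, smul_eq_mul] at this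
  rw [this, dg_apply]
  split_ifs with h
  · subst h; exact one_smul _ _
  · exact zero_smul _ _

/-- The walk. -/
noncomputable def walk (V : Mat H d) : (i : ℕ) → (Fin i → Fin d → Bool) → Mat H d
  | 0, _ => 1
  | i + 1, r => walk V i (Fin.init r) * (us (r (Fin.last i)) * V * us (r (Fin.last i)))

/-- The diagonal averaged conjugates. -/
noncomputable def bseq (V : Mat H d) (A : Fin d → H →L[ℂ] H) : ℕ → Fin d → H →L[ℂ] H
  | 0 => A
  | i + 1 => fun j => (star V * dg (bseq V A i) * V) j j

/-- `η ↦ diag (V η V*)`. -/
noncomputable def phi (D : ModData M Ω) (V : Mat H d) (η : L2 H d) : L2 H d := pd (tw D V η)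

lemma av_succ {E : Type*} [AddCommMonoid E] [Module ℂ E] (i : ℕ)
    (f : (Fin (i + 1) → Fin d → Bool) → E) :
    av f = av fun s : Fin i → Fin d → Bool => av fun r : Fin d → Bool => f (Fin.snoc s r) := by
  have e : ∑ x, f x = ∑ r : Fin d → Bool, ∑ s : Fin i → Fin d → Bool, f (Fin.snoc s r) := by
    rw [← Fintype.sum_prod_type']
    exact (Fintype.sum_equiv (Fin.snocEquiv fun _ => Fin d → Bool) _ _ fun _ => rfl).symm
  simp only [av]
  rw [← Finset.smul_sum, smul_smul, ← mul_inv, e, Finset.sum_comm]
  congr 2
  simp [pow_succ]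

variable {V : Mat H d}

lemma walk_spec (hVM : InM M V) (h1 : star V * V = 1) (h2 : V * star V = 1) :
    ∀ (i : ℕ) (r : Fin i → Fin d → Bool), InM M (walk V i r) ∧
      star (walk V i r) * walk V i r = 1 ∧ walk V i r * star (walk V i r) = 1
  | 0, _ => ⟨inM_one M, by simp [walk], by simp [walk]⟩
  | i + 1, r => by
    obtain ⟨hM, e1, e2⟩ := walk_spec hVM h1 h2 i (Fin.init r)
    set w := walk V i (Fin.init r)
    set u := us (H := H) (r (Fin.last i))
    have hu : u * u = 1 := us_sq _
    have hs : star u = u := star_us _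
    refine ⟨hM.mul (((inM_us _).mul hVM).mul (inM_us _)), ?_, ?_⟩
    · calc star (w * (u * V * u)) * (w * (u * V * u))
          = u * star V * u * (star w * w) * (u * V * u) := by
            rw [star_mul, star_mul, star_mul, hs]; noncomm_ring
        _ = u * star V * (u * u) * V * u := by rw [e1, mul_one]; noncomm_ring
        _ = u * (star V * V) * u := by rw [hu, mul_one]; noncomm_ring
        _ = 1 := by rw [h1, mul_one, hu]
    · calc w * (u * V * u) * star (w * (u * V * u))
          = w * u * V * (u * u) * star V * u * star w := by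
            rw [star_mul, star_mul, star_mul, hs]; noncomm_ring
        _ = w * u * (V * star V) * u * star w := by rw [hu, mul_one]; noncomm_ring
        _ = w * (u * u) * star w := by rw [h2, mul_one]; noncomm_ring
        _ = 1 := by rw [hu, mul_one, e2]

lemma av_tw_walk (D : ModData M Ω) (hVM : InM M V) (h1 : star V * V = 1)
    (h2 : V * star V = 1) : ∀ (i : ℕ) (η : L2 H d), pd η = η →
      av (fun r => tw D (walk V i r) η) = (phi D V)^[i] η
  | 0, η, _ => by
    simp [av, walk, tw_apply, act_one, conj_conj]
  | i + 1, η, hη => by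
    rw [av_succ, Function.iterate_succ_apply, ← av_tw_walk D hVM h1 h2 i (phi D V η)]
    · congr 1
      funext s
      rw [← av_tw_us D (tw D V η) |>.trans (show pd (tw D V η) = phi D V η from rfl)]
      simp only [av, map_smul, map_sum, walk, Fin.init_snoc, Fin.snoc_last]
      congr 1
      refine Finset.sum_congr rfl fun r _ => ?_
      rw [tw_mul D (walk_spec hVM h1 h2 i s).1 (((inM_us r).mul hVM).mul (inM_us r)),
        tw_mul D ((inM_us r).mul hVM) (inM_us r), tw_us_diag D r hη,
        tw_mul D (inM_us r) hVM]
    · refine PiLp.ext fun p => ?_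
      simp +contextual [phi]

lemma av_conj_walk (A : Fin d → H →L[ℂ] H) : ∀ i : ℕ,
    av (fun r => star (walk V i r) * dg A * walk V i r) = dg (bseq V A i)
  | 0 => by simp [av, walk, bseq]
  | i + 1 => by
    have hB : ∀ r : Fin d → Bool, us r * dg (bseq V A i) * us r = dg (bseq V A i) := fun r => by
      refine CStarMatrix.ext fun j k => ?_
      rw [us, mul_dg, dg_mul, dg_apply, smul_mul_assoc, one_mul, mul_smul_comm, mul_one,
        smul_smul]
      split_ifs with h
      · subst h; rw [sgn_mul_self, one_smul]
      · simp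
    rw [av_succ, bseq, ← av_us_mul_us (star V * dg (bseq V A i) * V),
      show (fun r : Fin d → Bool => us r * (star V * dg (bseq V A i) * V) * us r) =
        fun r => us r * (star V * (us r * dg (bseq V A i) * us r) * V) * us r from
          funext fun r => by rw [hB r],
      ← av_conj_walk A i]
    simp only [av, walk, Fin.init_snoc, Fin.snoc_last, Finset.mul_sum, Finset.sum_mul,
      mul_smul_comm, smul_mul_assoc, Finset.smul_sum]
    rw [Finset.sum_comm]
    refine Finset.sum_congr rfl fun r _ => Finset.sum_congr rfl fun s _ => ?_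
    rw [smul_comm, star_mul, star_mul, star_mul, star_us]
    simp only [mul_assoc]

end Vale.Agent.P132.Random
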